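import Crest.Agent.X262.Surf.Defs
import Crest.Agent.X262.Geo.Val
import Crest.Agent.X262.Mod79.Bp
import Crest.Agent.R276.DivVal13_858
import Crest.Agent.X277.BD.Vol

/-!
# Row 262, SURF (helper83): primes over the primes of the base

* `dvs_cm`, `dvs_of_cm`, `prm_pb` : divisorial valuations in a finite extension;
* `isMod_oP`, `car_oP` : a smooth model in the language of `Mod79`;
* `dg_eq_zero_of` : a nef class dominated by a class of the base has degree zero on the other primes;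
* `horStmt`, `hor0Stmt`.
-/

set_option autoImplicit false

noncomputable section

namespace Crest.Agent.X262.Hor83

open Crest.Agent.X277 Crest.Agent.X277.Lef Crest.Agent.X277.BD Crest.Agent.X277.Pst
open Crest.Agent.X277.BD.Br (On oP)
open Crest.Agent.X262.Mod Crest.Agent.X262.Geo Crest.Agent.X262.Surf
open Crest.Agent.R276.DivVal_858

section Gen

variable {k E F : Type} [Field k] [Field E] [Field F] [Algebra k E] [Algebra k F]
variable {α : E →ₐ[k] F} {W : RZ k F} {H Θ : BD k E}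

/-- restriction of a valuation ring -/
abbrev rs (α : E →ₐ[k] F) (W : RZ k F) : RZ k E := cm (α : E →+* F) (alg_ov α) W

theorem resInd_pb {ι : Type*} {y : ι → E} (h : ResInd k (rs α W).1 y) :
    ResInd k W.1 fun i => α (y i) := by
  refine ⟨h.1, fun q hq => ?_⟩
  have h1 : (rs α W).v (MvPolynomial.aeval y q) = (rs α W).v 1 := (h.2 q hq).trans (map_one _).symm
  have h2 := (v_cm_eq_iff _ _).1 h1
  rw [map_one, map_one] at h2
  rw [← MvPolynomial.comp_aeval_apply]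
  exact h2

theorem ne_top_of_cm (h : (rs α W).1 ≠ ⊤) : W.1 ≠ ⊤ := fun h0 =>
  h (top_unique fun _ _ => (mem_cm _ _).2 (h0 ▸ trivial))

theorem loc_pb {x : E} (h : x ∈ loc H (rs α W)) : α x ∈ loc (pb α H) W := by
  obtain ⟨m, g, h1, h2, h3⟩ := h
  refine ⟨m, α g, ?_, ?_, ?_⟩
  · rw [← map_nsmul]
    exact pb_mem_Sec h1
  · rw [← map_nsmul]
    exact v_eq_val_mp.2 h2
  · rw [← map_nsmul, ← map_mul]
    exact pb_mem_Sec h3

theorem prm_pb (hd : dim k F = dim k E) (h : Prm H (rs α W)) : Prm (pb α H) W := by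
  obtain ⟨h0, y, h1, h2⟩ := h
  rw [Prm, dm_eq, hd]
  exact ⟨ne_top_of_cm h0, fun i => α (y i), fun i => loc_pb (h1 i), resInd_pb h2⟩

theorem dvs_of_cm (hd : dim k F = dim k E) (h : Dvs (rs α W)) : Dvs W := by
  obtain ⟨-, h0, y, h2⟩ := isDiv_iff.1 h
  rw [Dvs, dm_eq, hd]
  exact isDiv_iff.2 ⟨W.2, ne_top_of_cm h0, fun i => α (y i), resInd_pb h2⟩

variable [CharZero k] [Algebra.EssFiniteType k E] [Algebra.EssFiniteType k F]

theorem dvs_cm (hd : dim k F = dim k E) (h : Dvs W) : Dvs (rs α W) := by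
  let := α.toRingHom.toAlgebra
  have : IsScalarTower k E F := IsScalarTower.of_algebraMap_eq fun c => (α.commutes c).symm
  refine (restrict_of_ne_top trdeg_eq_dim trdeg_eq_dim h fun h0 => ?_).2.2.1
  have h1 := (restrict_top trdeg_eq_dim trdeg_eq_dim h fun c =>
    ValuationSubring.mem_comap.1 (h0 ▸ ValuationSubring.mem_top c)).1
  omega

theorem isMod_pb (hd : dim k F = dim k E) (hH : IsMod H) : IsMod (pb α H) :=
  isMod_iff.2 ⟨hH.free.pb α, hH.big.pb α hd⟩

/-- classes of the model have degree zero on exceptional curves -/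
theorem dg_car {U : RZ k E} (hE : dim k E = 2) (hH : Free H) (hΘ : Car H Θ) (hU : Dvs U)
    (h : ¬ Prm H U) : dg U [Θ] = 0 := by
  obtain ⟨c, h1, h2⟩ := hΘ
  have h0 : dg U [H] = 0 := dg_eq_zero (d := 1) hH hU h hE
  have h3 : 0 ≤ dg U [c • H + Θ] := dg_nonneg (by simpa using h1.nef)
  have h4 : 0 ≤ dg U [c • H - Θ] := dg_nonneg (by simpa using h2.nef)
  rw [dg_add, dg_nsmul, h0] at h3
  rw [dg_sub, dg_nsmul, h0] at h4
  omega

theorem bnum_exc {e : BD k E} (hE : dim k E = 2) (hH : Free H) (hΘ : Car H Θ) (he : EqOn H e 0) :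
    bnum [e, Θ] = 0 :=
  bnum_eq_zero fun U hU h => dg_car hE hH hΘ hU fun h1 => h ((od_eq_zero hU).2 (he U h1))

theorem od_nonneg' {y : BD k F} (hW : Dvs W) (h : 1 ≤ y.val W) : 0 ≤ od W y := by
  have := (od_le_iff (a := 0) (b := y) hW).2 h
  rwa [map_zero] at this

theorem dg_eq_zero_of {l l' : BD k F} {m : ℕ} (hE : dim k E = 2) (hF : dim k F = 2) (hH : IsMod H)
    (hΘ : Car H Θ) (hl : Nef l) (hl' : Nef l') (hm : 0 < m) (hz : NumZ (m • (l + l') - pb α Θ))
    (hW : Dvs W) (h : ¬ Prm H (rs α W)) : dg W [l] = 0 := by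
  obtain ⟨e, h0, h1, -, h2⟩ := hH.exists_exc_pos (dvs_cm (hF.trans hE.symm) hW) h
  have h3 : 0 ≤ pb α e := pb_nonneg_iff.2 h0
  have h4 : bnum [pb α Θ, pb α e] = 0 := by
    rw [bnum_perm (List.Perm.swap _ _ _)]
    exact (bnum_pb α [e, Θ]).trans (by rw [bnum_exc hE hH.free hΘ h1, mul_zero])
  have h5 := hz.bnum_eq [pb α e]
  rw [h4, bnum_nsmul, bnum_add, bnum_perm (List.Perm.swap _ l _),
    bnum_perm (List.Perm.swap _ l' _)] at h5
  have h6 := od_mul_le (l := [l]) h3 (by simpa using hl) hW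
  have h7 : 0 ≤ bnum [pb α e, l'] := (psef_of_nonneg h3).bnum_nonneg (by simpa using hl')
  have h8 : 0 < od W (pb α e) := lt_of_le_of_ne (od_nonneg h3) fun h9 =>
    h2.ne' (val_mp_eq_one.1 ((od_eq_zero hW).1 h9.symm))
  have h9 : 0 ≤ dg W [l] := dg_nonneg (by simpa using hl)
  have h10 := (mul_eq_zero.1 h5).resolve_left (by exact_mod_cast hm.ne')
  exact (mul_eq_zero.1 (le_antisymm (by omega) (mul_nonneg h8.le h9))).resolve_left h8.ne'

theorem term_nonneg {y l l' : BD k F} {m : ℕ} (hE : dim k E = 2) (hF : dim k F = 2) (hH : IsMod H)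
    (hΘ : Car H Θ) (hl : Nef l) (hl' : Nef l') (hm : 0 < m) (hz : NumZ (m • (l + l') - pb α Θ))
    (hy : ∀ W, Prm H (rs α W) → 1 ≤ y.val W) (hW : Dvs W) : 0 ≤ od W y * dg W [l] := by
  by_cases h : Prm H (rs α W)
  · exact mul_nonneg (od_nonneg' hW (hy W h)) (dg_nonneg (by simpa using hl))
  · rw [dg_eq_zero_of hE hF hH hΘ hl hl' hm hz hW h, mul_zero]

theorem hor {y l l' : BD k F} {m : ℕ} (hE : dim k E = 2) (hF : dim k F = 2) (hH : IsMod H)
    (hΘ : Car H Θ) (hl : Nef l) (hl' : Nef l') (hm : 0 < m) (hz : NumZ (m • (l + l') - pb α Θ))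
    (hy : ∀ W, Prm H (rs α W) → 1 ≤ y.val W) : 0 ≤ bnum [y, l] := by
  obtain ⟨T, -, h1, -, h2⟩ := exists_cyc y [l] ∅ (by simp)
  rw [h2]
  exact Finset.sum_nonneg fun V hV => term_nonneg hE hF hH hΘ hl hl' hm hz hy (h1 V hV)

theorem hor0 {y : BD k F} (hE : dim k E = 2) (hF : dim k F = 2) (hH : IsMod H)
    (hy : ∀ W, Prm H (rs α W) → 1 ≤ y.val W) (h0 : bnum [y, pb α H] ≤ 0) (h : Prm H (rs α W)) :
    y.val W = 1 := by
  have hd := hF.trans hE.symm
  have hW := dvs_of_cm hd h.dvs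
  obtain ⟨T, h3, h1, -, h2⟩ := exists_cyc y [pb α H] {W} (by simpa using hW)
  have h4 := Finset.single_le_sum (f := fun V => od V y * dg V [pb α H]) (fun V hV =>
    term_nonneg (l' := 0) hE hF hH (car_self hH.free) (hH.free.pb α).nef Free.zero.nef one_pos
      (by simpa using NumZ.zero) hy (h1 V hV)) (h3 (Finset.mem_singleton_self W))
  have h5 : 0 < dg W [pb α H] := dg_pos (d := 1) (isMod_pb hd hH) (prm_pb hd h) hF
  have h6 := od_nonneg' hW (hy W h)
  refine (od_eq_zero hW).1 (by_contra fun h7 => ?_)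
  have h8 := mul_pos (lt_of_le_of_ne h6 (Ne.symm h7)) h5
  rw [← h2] at h4
  omega

end Gen

section Model

variable {E : Type} [Field E] [Algebra ℂ E] {B : PModel ℂ E} {Θ : BD ℂ E}

theorem isMod_oP (B : PModel ℂ E) : IsMod (oP B) := by
  refine ⟨Br.free_oP, fun f => ?_⟩
  have h : chart ℂ B.y 0 ≤ loc (oP B) (RZ.top ℂ E) := Algebra.adjoin_le (by
    rintro _ ⟨j, rfl⟩
    exact div_mem_loc (m := 1) (by simpa using Br.y_mem_Sec j) (by simpa using Br.y_mem_Sec 0)
      (by rw [val_top, RZ.v_top (B.y_ne 0)]))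
  obtain ⟨a, ha, c, hc, h0, rfl⟩ := B.frac f
  obtain ⟨m, g, h1, h2, h3⟩ := h ha
  obtain ⟨m', g', h4, h5, h6⟩ := h hc
  refine ⟨m' + m, c * g' * g, add_nsmul (oP B) m' m ▸ mul_mem_Sec h6 h1,
    mul_ne_zero (mul_ne_zero h0 (ne_of_val h5)) (ne_of_val h2), ?_⟩
  rw [show a / c * (c * g' * g) = g' * (a * g) by field_simp, add_nsmul]
  exact mul_mem_Sec h4 h3

theorem car_oP (h : Θ ∈ On B) : Car (oP B) Θ := by
  obtain ⟨N, h1⟩ := Br.serre h
  obtain ⟨N', h2⟩ := Br.serre (neg_mem h)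
  exact car_of Br.free_oP (m := N) (n := N') (add_comm Θ _ ▸ h1 N le_rfl)
    (by rw [sub_eq_neg_add]; exact h2 N' le_rfl)

theorem dim_two (b : B2 E) : dim ℂ E = 2 := by simpa using Module.finrank_eq_card_basis b

end Model

theorem horStmt : HorStmt := fun _ _ _ _ _ _ _ _ _ B b _ _ _ _ _ hF hl hl' hΘ hm hz hy =>
  hor (dim_two b) hF (isMod_oP B) (car_oP hΘ) hl hl' hm hz hy

theorem hor0Stmt : Hor0Stmt := fun _ _ _ _ _ _ _ _ _ B b _ hF hy h0 _ h =>
  hor0 (dim_two b) hF (isMod_oP B) hy h0 h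

end Crest.Agent.X262.Hor83
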