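import Crest.Agent.X262.Hor83.Main
import Crest.Agent.X262.Surf.Defs2
import Crest.Agent.X262.Sark27.Term

/-!
# Row 262, SURF (helper83): the relative canonical divisor is exceptional
-/

set_option autoImplicit false

namespace Crest.Agent.X262.Hor83

open Crest.Agent.X277 Crest.Agent.X277.BD Crest.Agent.X262.Mod Crest.Agent.X262.Surf

theorem kExcStmt : KExcStmt := fun _ _ _ _ P P' b h y hy => by
  have h1 := bnum_exc (dim_two b) Br.free_oP (car_oP hy) (eqOn_sub.2 fun V hV =>
    (Sark27.kP_eq_val (b := b) hV ((car_oP h).prm hV)).symm)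
  rwa [bnum_sub, sub_eq_zero] at h1

end Crest.Agent.X262.Hor83
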